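import Mathlib
import Vale.Agent.Lib.P302.helper8.Chunked

/-!
# P302: the mask search with dominated states removed and with shrinking row lists

Two additions to the layered mask search of `Vale.Agent.Lib.P302.helper8.Fast`:

* *Domination.*  If the sizes of the rows present in a state `a` are, in order, at most the sizes
  of the rows present in a state `c`, then a split of `c` into triples gives a split of `a`
  (`domOK_sound`).  So a child of a layer need not be kept in the next layer if the next layer
  contains a state that dominates it; `stepOKD` checks this with an explicit index for every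
  child.
* *Shrinking rows.*  When all states of a layer lie inside a mask `U`, the rows outside `U` can be
  dropped from the row list (`restrict_no`).
-/

namespace Vale.Agent.Lib.P302.helper9

open Vale.Agent.Lib.P302.helper14 Vale.Agent.Lib.P302.helper8

/-- Two lists of numbers have the same length and the first is pointwise at most the second. -/
def lePt : List ℕ → List ℕ → Bool
  | [], [] => true
  | [], _ :: _ => false
  | _ :: _, [] => false
  | a :: as, b :: bs =>
    match Nat.ble a b with
    | true => lePt as bs
    | false => false

/-- A pointwise smaller list of sizes inherits a split into triples. -/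
theorem tri_le_aux {L : ℕ} : ∀ (A B : List ℕ), lePt A B = true → ∀ C : Multiset ℕ,
    TriPart L ((B : Multiset ℕ) + C) → TriPart L ((A : Multiset ℕ) + C)
  | [], [], _, _, h => h
  | [], _ :: _, h, _, _ => by simp [lePt] at h
  | _ :: _, [], h, _, _ => by simp [lePt] at h
  | a :: as, b :: bs, hle, C, h => by
    cases hab : Nat.ble a b with
    | false => simp [lePt, hab] at hle
    | true =>
      have hrest : lePt as bs = true := by simpa [lePt, hab] using hle
      have hab' : a ≤ b := Nat.le_of_ble_eq_true hab
      have e1 : ((b :: bs : List ℕ) : Multiset ℕ) + C = b ::ₘ ((bs : Multiset ℕ) + C) := by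
        rw [← Multiset.cons_coe, Multiset.cons_add]
      rw [e1] at h
      have h2 : TriPart L (a ::ₘ ((bs : Multiset ℕ) + C)) := TriPart.mono h hab'
      have e2 : a ::ₘ ((bs : Multiset ℕ) + C) = (bs : Multiset ℕ) + (a ::ₘ C) := by
        rw [Multiset.add_cons]
      rw [e2] at h2
      have h3 := tri_le_aux as bs hrest (a ::ₘ C) h2
      have e3 : ((a :: as : List ℕ) : Multiset ℕ) + C = (as : Multiset ℕ) + (a ::ₘ C) := by
        rw [← Multiset.cons_coe, Multiset.cons_add, Multiset.add_cons]
      rw [e3]
      exact h3

theorem tri_le {L : ℕ} {A B : List ℕ} (h : lePt A B = true) (hT : TriPart L (B : Multiset ℕ)) :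
    TriPart L (A : Multiset ℕ) := by
  have h0 : TriPart L ((B : Multiset ℕ) + 0) := by
    rw [add_zero]
    exact hT
  have h1 := tri_le_aux A B h 0 h0
  rw [add_zero] at h1
  exact h1

/-- The state `a` dominates the state `c`: the sizes of the rows present in `a` are, in order,
at most the sizes of the rows present in `c` (and there are equally many). -/
def domOK (rows : List Row) (a c : ℕ) : Bool :=
  lePt ((sel rows a).map Row.sz) ((sel rows c).map Row.sz)

theorem domOK_sound {rows : List Row} {L a c : ℕ} (h : domOK rows a c = true)
    (hT : TriPart L (szs (sel rows c))) : TriPart L (szs (sel rows a)) :=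
  tri_le h hT

/-- The entry of a list at an index. -/
def nth? : List ℕ → ℕ → Option ℕ
  | [], _ => none
  | a :: as, i =>
    match Nat.beq i 0 with
    | true => some a
    | false => nth? as (Nat.sub i 1)

theorem nth?_mem : ∀ (l : List ℕ) (i a : ℕ), nth? l i = some a → a ∈ l
  | [], i, a, h => by simp [nth?] at h
  | b :: bs, i, a, h => by
    cases hb : Nat.beq i 0 with
    | true =>
      simp only [nth?, hb] at h
      have e : b = a := Option.some.inj h
      rw [← e]
      exact List.mem_cons_self
    | false =>
      simp only [nth?, hb] at h
      exact List.mem_cons_of_mem _ (nth?_mem bs _ a h)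

/-- Walk through the children `cs` and their hints: the state of `next` at the hinted index must
be the child itself or dominate it. -/
def walkD (rows : List Row) (next : List ℕ) : List ℕ → List ℕ → Bool
  | [], _ => true
  | _ :: _, [] => false
  | c :: cs, h :: hs =>
    match nth? next h with
    | none => false
    | some a =>
      match Nat.beq a c with
      | true => walkD rows next cs hs
      | false =>
        match domOK rows a c with
        | true => walkD rows next cs hs
        | false => false

theorem walkD_sound {rows : List Row} {L : ℕ} {next : List ℕ}
    (hnext : ∀ m ∈ next, ¬ TriPart L (szs (sel rows m))) :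
    ∀ (cs hs : List ℕ), walkD rows next cs hs = true →
      ∀ c ∈ cs, ¬ TriPart L (szs (sel rows c))
  | [], _, _, c, hc => by simp at hc
  | _ :: _, [], h, _, _ => by simp [walkD] at h
  | c0 :: cs, h0 :: hs, h, c, hc => by
    cases hn : nth? next h0 with
    | none => simp [walkD, hn] at h
    | some a =>
      have ha : a ∈ next := nth?_mem next h0 a hn
      cases hb : Nat.beq a c0 with
      | true =>
        simp only [walkD, hn, hb] at h
        rcases List.mem_cons.mp hc with rfl | hc'
        · have e : a = c := Nat.eq_of_beq_eq_true hb
          rw [← e]
          exact hnext a ha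
        · exact walkD_sound hnext cs hs h c hc'
      | false =>
        cases hd : domOK rows a c0 with
        | false => simp [walkD, hn, hb, hd] at h
        | true =>
          simp only [walkD, hn, hb, hd] at h
          rcases List.mem_cons.mp hc with rfl | hc'
          · intro hT
            exact hnext a ha (domOK_sound hd hT)
          · exact walkD_sound hnext cs hs h c hc'

/-- Check for one piece of a layer: every child of a state of the piece is, or is dominated by,
the state of `next` at the index given for it in `hints`. -/
def stepOKD (rows : List Row) (L : ℕ) (piece next hints : List ℕ) : Bool :=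
  walkD rows next (stepF rows L piece) hints

theorem stepOKD_sound {rows : List Row} {L : ℕ} {piece next hints : List ℕ}
    (hr : rowsOK rows = true) (h : stepOKD rows L piece next hints = true)
    (hnext : ∀ m ∈ next, ¬ TriPart L (szs (sel rows m))) :
    ∀ m ∈ piece, ¬ TriPart L (szs (sel rows m)) := by
  intro m hm hT
  obtain ⟨hnd, hsort⟩ := rowsOK_sound hr
  obtain ⟨m', hm', hT'⟩ := kids_sound hnd hsort hT
  exact walkD_sound hnext _ _ h m' (mem_stepF hm hm') hT'

/-- Boolean equality of two lists of rows. -/
def rowEqB : List Row → List Row → Bool
  | [], [] => true
  | [], _ :: _ => false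
  | _ :: _, [] => false
  | a :: as, b :: bs =>
    match Nat.beq a.pos b.pos with
    | false => false
    | true =>
      match Nat.beq a.sz b.sz with
      | false => false
      | true => rowEqB as bs

theorem rowEqB_sound : ∀ (l l' : List Row), rowEqB l l' = true → l = l'
  | [], [], _ => rfl
  | [], _ :: _, h => by simp [rowEqB] at h
  | _ :: _, [], h => by simp [rowEqB] at h
  | a :: as, b :: bs, h => by
    cases hp : Nat.beq a.pos b.pos with
    | false => simp [rowEqB, hp] at h
    | true =>
      cases hs : Nat.beq a.sz b.sz with
      | false => simp [rowEqB, hp, hs] at h
      | true =>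
        have hrest : rowEqB as bs = true := by simpa [rowEqB, hp, hs] using h
        have e1 : a.pos = b.pos := Nat.eq_of_beq_eq_true hp
        have e2 : a.sz = b.sz := Nat.eq_of_beq_eq_true hs
        have e : a = b := by
          cases a
          cases b
          simp only at e1 e2
          rw [e1, e2]
        rw [e, rowEqB_sound as bs hrest]

/-- All states of a layer lie inside the mask `U`. -/
def insideB (U : ℕ) : List ℕ → Bool
  | [] => true
  | m :: ms =>
    match Nat.beq (Nat.land m U) m with
    | true => insideB U ms
    | false => false

theorem insideB_sound (U : ℕ) : ∀ (l : List ℕ), insideB U l = true → ∀ m ∈ l, Nat.land m U = m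
  | [], _, m, hm => by simp at hm
  | a :: as, h, m, hm => by
    unfold insideB at h
    cases hb : Nat.beq (Nat.land a U) a with
    | false =>
      rw [hb] at h
      have h' : false = true := h
      exact Bool.noConfusion h'
    | true =>
      rw [hb] at h
      have h' : insideB U as = true := h
      rcases List.mem_cons.mp hm with rfl | hm'
      · exact Nat.eq_of_beq_eq_true hb
      · exact insideB_sound U as h' m hm'

/-- For a state inside `U` the rows outside `U` do not matter. -/
theorem sel_sel (rows : List Row) (U m : ℕ) (h : Nat.land m U = m) :
    sel (sel rows U) m = sel rows m := by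
  unfold sel
  rw [List.filter_filter]
  apply List.filter_congr
  intro r _
  rw [tb_eq, tb_eq]
  have h' : m &&& U = m := h
  have h2 : Nat.testBit (m &&& U) r.pos = Nat.testBit m r.pos := by rw [h']
  rw [Nat.testBit_and] at h2
  cases hm : Nat.testBit m r.pos with
  | false => simp
  | true =>
    rw [hm] at h2
    simp only [Bool.true_and] at h2
    rw [h2]
    rfl

/-- Passing to the rows inside `U`: if no state of the layer splits into triples with respect to
the shrunk row list, then none does with respect to the full one. -/
theorem restrict_no {rows rows' : List Row} {L U : ℕ} {layer : List ℕ}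
    (hrows : rowEqB rows' (sel rows U) = true) (hin : insideB U layer = true)
    (h : ∀ m ∈ layer, ¬ TriPart L (szs (sel rows' m))) :
    ∀ m ∈ layer, ¬ TriPart L (szs (sel rows m)) := by
  intro m hm
  have e := rowEqB_sound _ _ hrows
  have hU := insideB_sound U layer hin m hm
  have h1 := h m hm
  rw [e, sel_sel rows U m hU] at h1
  exact h1

end Vale.Agent.Lib.P302.helper9
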