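import Mathlib
import Vale.Agent.Lib.P302.helper8.Prio
import Vale.Agent.Lib.P302.helper9.Dom

/-!
# P302: the mask search with dominated states removed, layers stored in chunks

The step of `Vale.Agent.Lib.P302.helper8.Prio` (the row removed first is the present row whose
position comes first in a list `prio`) combined with the domination rule of
`Vale.Agent.Lib.P302.helper9.Dom`.  A layer is stored as a list of chunks; for every child of a
state the certificate names a state of the next layer (chunk `h / 64`, entry `h % 64`) that is
the child itself or dominates it.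
-/

namespace Vale.Agent.Lib.P302.helper9

open Vale.Agent.Lib.P302.helper14 Vale.Agent.Lib.P302.helper8

/-- The entry `j` of the chunk `i` of a list of chunks. -/
def nth2? : List (List ℕ) → ℕ → ℕ → Option ℕ
  | [], _, _ => none
  | p :: ps, i, j =>
    match Nat.beq i 0 with
    | true => nth? p j
    | false => nth2? ps (Nat.sub i 1) j

theorem nth2?_mem : ∀ (l : List (List ℕ)) (i j a : ℕ), nth2? l i j = some a → ∃ p ∈ l, a ∈ p
  | [], i, j, a, h => by simp [nth2?] at h
  | p :: ps, i, j, a, h => by
    cases hb : Nat.beq i 0 with
    | true =>
      simp only [nth2?, hb] at h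
      exact ⟨p, List.mem_cons_self, nth?_mem p j a h⟩
    | false =>
      simp only [nth2?, hb] at h
      obtain ⟨q, hq, ha⟩ := nth2?_mem ps _ j a h
      exact ⟨q, List.mem_cons_of_mem _ hq, ha⟩

theorem tb_xor_false {a c p : ℕ} (h : tb (Nat.xor a c) p = false) : tb a p = tb c p := by
  simp only [tb_eq] at h ⊢
  have h' : Nat.testBit (a ^^^ c) p = false := h
  rw [Nat.testBit_xor] at h'
  cases ha : Nat.testBit a p <;> cases hc : Nat.testBit c p <;> simp_all

/-- The rows present in `m` split into those at which a mask `d` has a bit and the others. -/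
theorem szs_split (rows : List Row) (d m : ℕ) :
    szs (sel rows m) = szs (sel (sel rows d) m)
      + szs (rows.filter (fun r => !(tb d r.pos) && tb m r.pos)) := by
  have hperm := List.filter_append_perm (fun r : Row => tb d r.pos) (sel rows m)
  have e1 : (sel rows m).filter (fun r : Row => tb d r.pos) = sel (sel rows d) m := by
    unfold sel
    rw [List.filter_filter, List.filter_filter]
    apply List.filter_congr
    intro r _
    exact Bool.and_comm _ _
  have e2 : (sel rows m).filter (fun r : Row => !(tb d r.pos))
      = rows.filter (fun r => !(tb d r.pos) && tb m r.pos) := by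
    unfold sel
    rw [List.filter_filter]
  rw [e1, e2] at hperm
  unfold szs
  rw [Multiset.coe_add, ← List.map_append]
  exact (Multiset.coe_eq_coe.mpr (hperm.map Row.sz)).symm

/-- Domination, tested on the rows in which the two states differ: among these rows, the sizes
of those present in `a` are, in order, at most the sizes of those present in `c`. -/
def domOK2 (rows : List Row) (a c : ℕ) : Bool :=
  domOK (sel rows (Nat.xor a c)) a c

theorem domOK2_sound {rows : List Row} {L a c : ℕ} (h : domOK2 rows a c = true)
    (hT : TriPart L (szs (sel rows c))) : TriPart L (szs (sel rows a)) := by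
  have hc := szs_split rows (Nat.xor a c) c
  have ha := szs_split rows (Nat.xor a c) a
  have hK : rows.filter (fun r => !(tb (Nat.xor a c) r.pos) && tb a r.pos)
      = rows.filter (fun r => !(tb (Nat.xor a c) r.pos) && tb c r.pos) := by
    apply List.filter_congr
    intro r _
    show (!(tb (Nat.xor a c) r.pos) && tb a r.pos) = (!(tb (Nat.xor a c) r.pos) && tb c r.pos)
    cases hd : tb (Nat.xor a c) r.pos with
    | true => rfl
    | false => rw [tb_xor_false hd]
  rw [hc] at hT
  rw [ha, hK]
  exact tri_le_aux _ _ h _ hT

/-- Walk through the children `cs` and their hints: the state of `next` named by the hint `h`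
(chunk `h / 64`, entry `h % 64`) must be the child itself or dominate it. -/
def walkP (rows : List Row) (next : List (List ℕ)) : List ℕ → List ℕ → Bool
  | [], _ => true
  | _ :: _, [] => false
  | c :: cs, h :: hs =>
    match nth2? next (Nat.div h 64) (Nat.mod h 64) with
    | none => false
    | some a =>
      match Nat.beq a c with
      | true => walkP rows next cs hs
      | false =>
        match domOK2 rows a c with
        | true => walkP rows next cs hs
        | false => false

theorem walkP_sound {rows : List Row} {L : ℕ} {next : List (List ℕ)}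
    (hnext : ∀ p ∈ next, ∀ m ∈ p, ¬ TriPart L (szs (sel rows m))) :
    ∀ (cs hs : List ℕ), walkP rows next cs hs = true →
      ∀ c ∈ cs, ¬ TriPart L (szs (sel rows c))
  | [], _, _, c, hc => by simp at hc
  | _ :: _, [], h, _, _ => by simp [walkP] at h
  | c0 :: cs, h0 :: hs, h, c, hc => by
    cases hn : nth2? next (Nat.div h0 64) (Nat.mod h0 64) with
    | none => simp [walkP, hn] at h
    | some a =>
      obtain ⟨p, hp, hap⟩ := nth2?_mem next _ _ a hn
      have ha : ¬ TriPart L (szs (sel rows a)) := hnext p hp a hap
      cases hb : Nat.beq a c0 with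
      | true =>
        simp only [walkP, hn, hb] at h
        rcases List.mem_cons.mp hc with rfl | hc'
        · have e : a = c := Nat.eq_of_beq_eq_true hb
          rw [← e]
          exact ha
        · exact walkP_sound hnext cs hs h c hc'
      | false =>
        cases hd : domOK2 rows a c0 with
        | false => simp [walkP, hn, hb, hd] at h
        | true =>
          simp only [walkP, hn, hb, hd] at h
          rcases List.mem_cons.mp hc with rfl | hc'
          · intro hT
            exact ha (domOK2_sound hd hT)
          · exact walkP_sound hnext cs hs h c hc'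

/-- Check for one piece of a layer: every child of a state of the piece is, or is dominated by,
the state of the next layer named by its hint.  The children are sorted (repetitions removed)
before the walk. -/
def stepOKDP (rows : List Row) (prio : List ℕ) (L : ℕ) (piece : List ℕ)
    (next : List (List ℕ)) (hints : List ℕ) : Bool :=
  walkP rows next (sortN (piece.flatMap (kidsP rows prio L))) hints

theorem stepOKDP_sound {rows : List Row} {prio : List ℕ} {L : ℕ} {piece : List ℕ}
    {next : List (List ℕ)} {hints : List ℕ}
    (hr : rowsOK rows = true) (h : stepOKDP rows prio L piece next hints = true)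
    (hnext : ∀ p ∈ next, ∀ m ∈ p, ¬ TriPart L (szs (sel rows m))) :
    ∀ m ∈ piece, ¬ TriPart L (szs (sel rows m)) := by
  intro m hm hT
  obtain ⟨hnd, hsort⟩ := rowsOK_sound hr
  obtain ⟨m', hm', hT'⟩ := kidsP_sound hnd hsort prio hT
  exact walkP_sound hnext _ _ h m' (mem_sortN (List.mem_flatMap.mpr ⟨m, hm, hm'⟩)) hT'

theorem nil_no2 (rows : List Row) (L : ℕ) :
    ∀ p ∈ ([] : List (List ℕ)), ∀ m ∈ p, ¬ TriPart L (szs (sel rows m)) := by
  intro p hp
  simp at hp

theorem cons_no2 {rows : List Row} {L : ℕ} {p : List ℕ} {ps : List (List ℕ)}
    (h1 : ∀ m ∈ p, ¬ TriPart L (szs (sel rows m)))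
    (h2 : ∀ q ∈ ps, ∀ m ∈ q, ¬ TriPart L (szs (sel rows m))) :
    ∀ q ∈ p :: ps, ∀ m ∈ q, ¬ TriPart L (szs (sel rows m)) := by
  intro q hq
  rcases List.mem_cons.mp hq with rfl | hq'
  · exact h1
  · exact h2 q hq'

theorem head_no2 {rows : List Row} {L m0 : ℕ}
    (h : ∀ p ∈ [[m0]], ∀ m ∈ p, ¬ TriPart L (szs (sel rows m))) :
    ∀ m' ∈ [m0], ¬ TriPart L (szs (sel rows m')) :=
  h [m0] List.mem_cons_self

/-- All states of all chunks of a layer lie inside the mask `U`. -/
def insideB2 (U : ℕ) : List (List ℕ) → Bool
  | [] => true
  | p :: ps =>
    match insideB U p with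
    | true => insideB2 U ps
    | false => false

theorem insideB2_sound (U : ℕ) : ∀ (l : List (List ℕ)), insideB2 U l = true →
    ∀ p ∈ l, insideB U p = true
  | [], _, p, hp => by simp at hp
  | q :: qs, h, p, hp => by
    cases hb : insideB U q with
    | false => simp [insideB2, hb] at h
    | true =>
      have h' : insideB2 U qs = true := by simpa [insideB2, hb] using h
      rcases List.mem_cons.mp hp with rfl | hp'
      · exact hb
      · exact insideB2_sound U qs h' p hp'

/-- Passing to the rows inside `U`, for a layer stored in chunks. -/
theorem restrict_no2 {rows rows' : List Row} {L U : ℕ} {layer : List (List ℕ)}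
    (hrows : rowEqB rows' (sel rows U) = true) (hin : insideB2 U layer = true)
    (h : ∀ p ∈ layer, ∀ m ∈ p, ¬ TriPart L (szs (sel rows' m))) :
    ∀ p ∈ layer, ∀ m ∈ p, ¬ TriPart L (szs (sel rows m)) :=
  fun p hp => restrict_no hrows (insideB2_sound U layer hin p hp) (h p hp)

end Vale.Agent.Lib.P302.helper9
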