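import Mathlib
import Vale.Agent.Lib.P302.helper14.Bridge

/-!
# P302: checking a fractional solution in pieces

The check `fracOK` of `Vale.Agent.Lib.P302.helper14.Bridge` is the conjunction of a check for
every configuration (`cfgOK`) and a check for every item size (`covOK`); each of the two can be
verified on pieces of the list (`all_split`).
-/

namespace Vale.Agent.Lib.P302.helper9

open Vale.Agent.Lib.P302.helper14

/-- A configuration (with its weight) uses only sizes of `l` and fits into the capacity `L`. -/
def cfgOK (l : List ℕ) (L : ℕ) (p : List ℕ × ℕ) : Bool :=
  p.1.all (fun k => l.contains k) && Nat.ble p.1.sum L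

/-- The size `k` is covered by the weighted configurations `zs` (weights `w / D`) at least as
often as it occurs in `l`. -/
def covOK (l : List ℕ) (D : ℕ) (zs : List (List ℕ × ℕ)) (k : ℕ) : Bool :=
  Nat.ble (l.count k * D) (zs.map fun p => p.1.count k * p.2).sum

theorem fracOK_of {l : List ℕ} {L D : ℕ} {zs : List (List ℕ × ℕ)}
    (h1 : zs.all (cfgOK l L) = true) (h2 : l.all (covOK l D zs) = true) :
    fracOK l L D zs = true := by
  unfold fracOK
  rw [Bool.and_eq_true]
  exact ⟨h1, h2⟩

/-- A check of all entries of a list can be done on the first `c` entries and on the rest. -/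
theorem all_split {α : Type} {g : α → Bool} (c : ℕ) {l : List α}
    (h1 : (l.take c).all g = true) (h2 : (l.drop c).all g = true) : l.all g = true := by
  have e : l.all g = ((l.take c) ++ (l.drop c)).all g := by rw [List.take_append_drop]
  rw [e, List.all_append, h1, h2]
  rfl

end Vale.Agent.Lib.P302.helper9
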